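import Vale.Agent.P273.H852.Order

/-!
Order of the marks of a neck and the largest gap: the measure `d²X/|X|²` on an annulus, to the power
`J`, is the sum over the orders and the numbers of the largest gap of the measures in the gap
coordinates.
-/

set_option linter.unusedSectionVars false
set_option linter.unusedVariables false

namespace Vale.Agent.P273.H708

open MeasureTheory Finset Vale.Agent.P273.H852

section Real

variable {n : ℕ}

/-- Domain of the free gaps: positive and smaller than the eliminated one. -/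
def gdom (n : ℕ) (Y : ℝ) : Set (Fin n → ℝ) := {u | ∀ g, 0 < u g ∧ u g < Y - ∑ i, u i}

theorem measurableSet_gdom (n : ℕ) (Y : ℝ) : MeasurableSet (gdom n Y) := by
  unfold gdom
  rw [Set.ofPred_forall]
  refine MeasurableSet.iInter fun g => ?_
  refine (measurableSet_lt measurable_const (measurable_pi_apply g)).inter
    (measurableSet_lt (measurable_pi_apply g) ?_)
  fun_prop

/-- A level set of a nonzero linear form is a null set. -/
theorem null_level {ι : Type*} [Fintype ι] (L : (ι → ℝ) →ₗ[ℝ] ℝ) (hL : L ≠ 0) (c : ℝ) :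
    (volume : Measure (ι → ℝ)) {x | L x = c} = 0 := by
  by_cases h : ∃ p, L p = c
  · obtain ⟨p, hp⟩ := h
    have h1 : {x | L x = c} = (AffineSubspace.mk' p (LinearMap.ker L) : Set (ι → ℝ)) := by
      ext x
      simp only [Set.mem_ofPred_eq, SetLike.mem_coe, AffineSubspace.mem_mk', vsub_eq_sub,
        LinearMap.mem_ker, map_sub, hp, sub_eq_zero]
    rw [h1]
    refine Measure.addHaar_affineSubspace volume _ fun h2 => hL ?_
    have h3 : (AffineSubspace.mk' p (LinearMap.ker L)).direction = ⊤ := by
      rw [h2]; exact AffineSubspace.direction_top ℝ (ι → ℝ) (ι → ℝ)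
    rw [AffineSubspace.direction_mk'] at h3
    exact LinearMap.ker_eq_top.1 h3
  · have : {x | L x = c} = ∅ := by
      ext x
      simp only [Set.mem_ofPred_eq, Set.mem_empty_iff_false, iff_false]
      exact fun hx => h ⟨x, hx⟩
    rw [this, measure_empty]

theorem measurable_gapOf (Y : ℝ) (i : Fin (n + 1)) :
    Measurable fun t : Fin n → ℝ => gapOf Y t i := by
  simp only [gapOf]
  refine Measurable.sub ?_ ?_
  · rcases Fin.eq_castSucc_or_eq_last i with ⟨j, hj⟩ | hj
    · rw [hj]
      simp only [Fin.snoc_castSucc (α := fun _ => ℝ)]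
      exact measurable_pi_apply j
    · rw [hj]
      simp only [Fin.snoc_last (α := fun _ => ℝ)]
      exact measurable_const
  · rcases Fin.eq_zero_or_eq_succ i with hj | ⟨j, hj⟩
    · rw [hj]
      simp only [Fin.cons_zero]
      exact measurable_const
    · rw [hj]
      simp only [Fin.cons_succ (α := fun _ => ℝ)]
      exact measurable_pi_apply j

/-- Two gaps are almost never equal. -/
theorem null_gap_eq (Y : ℝ) (g g' : Fin (n + 1)) (h : g ≠ g') :
    (volume : Measure (Fin n → ℝ)) {t | gapOf Y t g = gapOf Y t g'} = 0 := by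
  have hms : MeasurableSet {t : Fin n → ℝ | gapOf Y t g = gapOf Y t g'} :=
    measurableSet_eq_fun (measurable_gapOf Y g) (measurable_gapOf Y g')
  rw [← (measurePreserving_gapEquiv g' Y).measure_preimage hms.nullMeasurableSet]
  obtain ⟨i, rfl⟩ : ∃ i, g'.succAbove i = g := Fin.exists_succAbove_eq h
  have hset : gapEquiv g' Y ⁻¹' {t | gapOf Y t (g'.succAbove i) = gapOf Y t g'} =
      {u : Fin n → ℝ | (LinearMap.proj (R := ℝ) (φ := fun _ : Fin n => ℝ) i +
        ∑ j, LinearMap.proj (R := ℝ) (φ := fun _ : Fin n => ℝ) j) u = Y} := by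
    ext u
    simp only [Set.mem_preimage, Set.mem_ofPred_eq]
    have e : gapOf Y (gapEquiv g' Y u) = fullGap g' Y u :=
      gapOf_posOf Y _ (sum_fullGap g' Y u)
    rw [e, fullGap_succAbove, fullGap_same]
    simp only [LinearMap.add_apply, LinearMap.proj_apply, LinearMap.sum_apply]
    constructor <;> intro h <;> linarith
  rw [hset]
  refine null_level _ (fun h0 => ?_) Y
  have := congrArg (fun L => L (Pi.single i (1 : ℝ))) h0
  simp only [LinearMap.add_apply, LinearMap.proj_apply, LinearMap.sum_apply, Pi.single_eq_same,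
    LinearMap.zero_apply] at this
  rw [Finset.sum_eq_single i (fun j _ hj => by simp [hj]) (by simp)] at this
  simp at this

/-- The order region in the position coordinates. -/
def oreg (Y : ℝ) (m : Fin (n + 1)) : Set (Fin n → ℝ) :=
  {t | ∀ i, 0 < gapOf Y t (m.succAbove i) ∧ gapOf Y t (m.succAbove i) < gapOf Y t m}

theorem measurableSet_oreg (Y : ℝ) (m : Fin (n + 1)) : MeasurableSet (oreg Y m) := by
  unfold oreg
  rw [Set.ofPred_forall]
  refine MeasurableSet.iInter fun g => ?_
  exact (measurableSet_lt measurable_const (measurable_gapOf Y _)).inter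
    (measurableSet_lt (measurable_gapOf Y _) (measurable_gapOf Y _))

theorem preimage_oreg (Y : ℝ) (m : Fin (n + 1)) : gapEquiv m Y ⁻¹' (oreg Y m) = gdom n Y := by
  ext u
  have e : gapOf Y (gapEquiv m Y u) = fullGap m Y u := gapOf_posOf Y _ (sum_fullGap m Y u)
  simp only [oreg, gdom, Set.mem_preimage, Set.mem_ofPred_eq, e, fullGap_succAbove, fullGap_same]

theorem map_gapEquiv_gdom (Y : ℝ) (m : Fin (n + 1)) :
    Measure.map (gapEquiv m Y) (volume.restrict (gdom n Y)) = volume.restrict (oreg Y m) := by
  rw [← preimage_oreg Y m]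
  exact ((measurePreserving_gapEquiv m Y).restrict_preimage (measurableSet_oreg Y m)).map_eq

/-- All gaps are positive iff the positions are increasing and in `(0, Y)`. -/
theorem gap_pos_iff (hn : 0 < n) (Y : ℝ) (t : Fin n → ℝ) :
    (∀ i, 0 < gapOf Y t i) ↔ StrictMono t ∧ ∀ i, t i ∈ Set.Ioo 0 Y := by
  obtain ⟨n, rfl⟩ : ∃ k, n = k + 1 := ⟨n - 1, by omega⟩
  have e0 : gapOf Y t 0 = t 0 := by
    rw [gapOf, Fin.cons_zero]
    have h2 : (0 : Fin (n + 2)) = Fin.castSucc (0 : Fin (n + 1)) := rfl
    rw [h2, Fin.snoc_castSucc (α := fun _ => ℝ), sub_zero]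
  have el : gapOf Y t (Fin.last (n + 1)) = Y - t (Fin.last n) := by
    rw [gapOf, Fin.snoc_last (α := fun _ => ℝ)]
    have h2 : Fin.last (n + 1) = Fin.succ (Fin.last n) := rfl
    rw [h2, Fin.cons_succ (α := fun _ => ℝ)]
  have em : ∀ i : Fin n, gapOf Y t (Fin.castSucc i.succ) = t i.succ - t i.castSucc := by
    intro i
    rw [gapOf, Fin.snoc_castSucc (α := fun _ => ℝ), ← Fin.succ_castSucc,
      Fin.cons_succ (α := fun _ => ℝ)]
  constructor
  · intro h
    have hmono : StrictMono t := by
      rw [Fin.strictMono_iff_lt_succ]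
      intro i
      have := h (Fin.castSucc i.succ)
      rw [em] at this
      linarith
    refine ⟨hmono, fun i => ⟨?_, ?_⟩⟩
    · have h0 := h 0
      rw [e0] at h0
      exact h0.trans_le (hmono.monotone (Fin.zero_le i))
    · have h1 := h (Fin.last (n + 1))
      rw [el] at h1
      have h2 := hmono.monotone (Fin.le_last i)
      linarith
  · rintro ⟨hmono, hin⟩ i
    rcases Fin.eq_castSucc_or_eq_last i with ⟨j, rfl⟩ | rfl
    · rcases Fin.eq_zero_or_eq_succ j with rfl | ⟨k, rfl⟩
      · have : (Fin.castSucc (0 : Fin (n + 1))) = 0 := rfl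
        rw [this, e0]; exact (hin 0).1
      · rw [em]
        have := hmono (Fin.castSucc_lt_succ (i := k))
        linarith
    · rw [el]
      have := (hin (Fin.last n)).2
      linarith

theorem oreg_pos (hn : 0 < n) {Y : ℝ} {m : Fin (n + 1)} {t : Fin n → ℝ} (ht : t ∈ oreg Y m) :
    ∀ i, 0 < gapOf Y t i := by
  intro i
  rcases Fin.eq_self_or_eq_succAbove m i with rfl | ⟨j, rfl⟩
  · have := ht ⟨0, hn⟩
    exact this.1.trans this.2
  · exact (ht j).1

end Real

section Ord

variable {J : Type*} [Fintype J] [DecidableEq J]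

/-- The region of positions of order `ord` with largest gap `m`. -/
def jreg (Y : ℝ) (x : (Fin (Fintype.card J) ≃ J) × Fin (Fintype.card J + 1)) : Set (J → ℝ) :=
  {s | (fun i => s (x.1 i)) ∈ oreg Y x.2}

theorem measurable_reindex (e : Fin (Fintype.card J) ≃ J) :
    Measurable fun (s : J → ℝ) (i : Fin (Fintype.card J)) => s (e i) :=
  measurable_pi_lambda _ fun i => measurable_pi_apply _

theorem measurableSet_jreg (Y : ℝ) (x : (Fin (Fintype.card J) ≃ J) × Fin (Fintype.card J + 1)) :
    MeasurableSet (jreg Y x) :=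
  measurable_reindex x.1 (measurableSet_oreg Y x.2)

theorem measurePreserving_reindex (e : Fin (Fintype.card J) ≃ J) :
    MeasurePreserving (fun (s : J → ℝ) (i : Fin (Fintype.card J)) => s (e i))
      (volume : Measure (J → ℝ)) volume := by
  have h := volume_measurePreserving_piCongrLeft (fun _ : Fin (Fintype.card J) => ℝ) e.symm
  have h1 : (MeasurableEquiv.piCongrLeft (fun _ : Fin (Fintype.card J) => ℝ) e.symm :
      (J → ℝ) → (Fin (Fintype.card J) → ℝ)) = fun s i => s (e i) := by
    funext s i
    obtain ⟨j, rfl⟩ := e.symm.surjective i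
    rw [MeasurableEquiv.piCongrLeft_apply_apply, Equiv.apply_symm_apply]
  rwa [h1] at h

theorem measurePreserving_reindex' (e : Fin (Fintype.card J) ≃ J) :
    MeasurePreserving (fun (u : Fin (Fintype.card J) → ℝ) (j : J) => u (e.symm j))
      (volume : Measure (Fin (Fintype.card J) → ℝ)) volume := by
  have h := volume_measurePreserving_piCongrLeft (fun _ : J => ℝ) e
  have h1 : (MeasurableEquiv.piCongrLeft (fun _ : J => ℝ) e :
      (Fin (Fintype.card J) → ℝ) → (J → ℝ)) = fun u j => u (e.symm j) := by
    funext s i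
    obtain ⟨j, rfl⟩ := e.surjective i
    rw [MeasurableEquiv.piCongrLeft_apply_apply, Equiv.symm_apply_apply]
  rwa [h1] at h

/-- Different regions are disjoint. -/
theorem jreg_disjoint (Y : ℝ) {x x' : (Fin (Fintype.card J) ≃ J) × Fin (Fintype.card J + 1)}
    (h : x ≠ x') (hn : 0 < Fintype.card J) : Disjoint (jreg Y x) (jreg Y x') := by
  rw [Set.disjoint_left]
  intro s hs hs'
  apply h
  obtain ⟨e, m⟩ := x
  obtain ⟨e', m'⟩ := x'
  have h1 := oreg_pos hn hs
  have h2 := oreg_pos hn hs'
  have m1 := ((gap_pos_iff hn Y _).1 h1).1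
  have m2 := ((gap_pos_iff hn Y _).1 h2).1
  have he : e = e' := by
    -- both enumerate `s` increasingly
    have h3 : StrictMono (fun i => e'.symm (e i)) := by
      intro i j hij
      have h4 : s (e i) < s (e j) := m1 hij
      by_contra h5
      have h6 := m2.monotone (not_lt.1 h5)
      simp only [Equiv.apply_symm_apply] at h6
      exact absurd h4 (not_lt.2 h6)
    have h7 : (fun i => e'.symm (e i)) = id := by
      have := StrictMono.range_inj (f := fun i => e'.symm (e i)) (g := id) h3 strictMono_id
      rw [← this]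
      rw [Set.range_id]
      exact Set.range_eq_univ.2 (e.trans e'.symm).surjective
    ext i
    have := congrFun h7 i
    simp only [id] at this
    rw [Equiv.symm_apply_eq] at this
    exact this
  subst he
  congr 1
  by_contra hm
  obtain ⟨i, hi⟩ : ∃ i, m.succAbove i = m' := Fin.exists_succAbove_eq (Ne.symm hm)
  obtain ⟨i', hi'⟩ : ∃ i, m'.succAbove i = m := Fin.exists_succAbove_eq hm
  have a1 := (hs i).2
  have a2 := (hs' i').2
  simp only at a1 a2
  rw [hi] at a1
  rw [hi'] at a2
  exact lt_asymm a1 a2

/-- The cube is the union of the regions up to a null set. -/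
theorem iUnion_jreg (Y : ℝ) (hn : 0 < Fintype.card J) :
    (⋃ x, jreg (J := J) Y x) =ᵐ[volume] Set.univ.pi fun _ : J => Set.Ioo 0 Y := by
  -- the generic points
  have hgen : ∀ᵐ s : J → ℝ, (∀ i j, i ≠ j → s i ≠ s j) ∧
      ∀ (e : Fin (Fintype.card J) ≃ J) (g g' : Fin (Fintype.card J + 1)), g ≠ g' →
        gapOf Y (fun i => s (e i)) g ≠ gapOf Y (fun i => s (e i)) g' := by
    refine Filter.Eventually.and ?_ ?_
    · rw [ae_all_iff]; intro i
      rw [ae_all_iff]; intro j
      by_cases hij : i = j
      · exact Filter.Eventually.of_forall fun s h => absurd hij h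
      have h0 := null_level ((LinearMap.proj (R := ℝ) (φ := fun _ : J => ℝ) i -
        LinearMap.proj (R := ℝ) (φ := fun _ : J => ℝ) j)) (fun h0 => by
          have := congrArg (fun L => L (Pi.single i (1 : ℝ))) h0
          simp [Ne.symm hij] at this) 0
      rw [ae_iff]
      refine measure_mono_null (fun s hs => ?_) h0
      simp only [Set.mem_ofPred_eq, ne_eq, hij, not_false_eq_true, forall_const, not_not] at hs
      simp [hs]
    · rw [ae_all_iff]; intro e
      rw [ae_all_iff]; intro g
      rw [ae_all_iff]; intro g'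
      by_cases hg : g = g'
      · exact Filter.Eventually.of_forall fun s h => absurd hg h
      have h0 := null_gap_eq Y g g' hg
      have hms : MeasurableSet {t : Fin (Fintype.card J) → ℝ | gapOf Y t g = gapOf Y t g'} :=
        measurableSet_eq_fun (measurable_gapOf Y g) (measurable_gapOf Y g')
      rw [← (measurePreserving_reindex e).measure_preimage hms.nullMeasurableSet] at h0
      rw [ae_iff]
      refine measure_mono_null (fun s hs => ?_) h0
      simp only [Set.mem_ofPred_eq, ne_eq, hg, not_false_eq_true, forall_const, not_not] at hs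
      exact hs
  filter_upwards [hgen] with s ⟨hinj, hgap⟩
  apply propext
  show s ∈ (⋃ x, jreg (J := J) Y x) ↔ s ∈ Set.univ.pi fun _ : J => Set.Ioo 0 Y
  rw [Set.mem_iUnion]
  constructor
  · rintro ⟨⟨e, m⟩, hs⟩ j _
    have h1 := ((gap_pos_iff hn Y _).1 (oreg_pos hn hs)).2 (e.symm j)
    simpa using h1
  · intro hs
    have hs' : ∀ j, s j ∈ Set.Ioo 0 Y := fun j => hs j (Set.mem_univ j)
    -- sort
    let e0 : Fin (Fintype.card J) ≃ J := (Fintype.equivFin J).symm
    let e : Fin (Fintype.card J) ≃ J := (Tuple.sort (fun i => s (e0 i))).trans e0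
    have hm : StrictMono fun i => s (e i) := by
      have h1 : Monotone fun i => s (e i) := Tuple.monotone_sort (fun i => s (e0 i))
      refine h1.strictMono_of_injective fun i j hij => ?_
      by_contra h2
      exact hinj _ _ (fun h3 => h2 (e.injective h3)) hij
    have hpos := (gap_pos_iff hn Y (fun i => s (e i))).2 ⟨hm, fun i => hs' _⟩
    obtain ⟨m, -, hmax⟩ := Finset.exists_max_image Finset.univ
      (fun g => gapOf Y (fun i => s (e i)) g) ⟨0, Finset.mem_univ _⟩
    refine ⟨(e, m), fun i => ⟨hpos _, lt_of_le_of_ne (hmax _ (Finset.mem_univ _))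
      (hgap e _ _ (Fin.succAbove_ne m i))⟩⟩

/-- The cube, as a sum over the orders and the numbers of the largest gap. -/
theorem sum_map_eq (Y : ℝ) :
    ∑ x : (Fin (Fintype.card J) ≃ J) × Fin (Fintype.card J + 1),
      Measure.map (fun (u : Fin (Fintype.card J) → ℝ) (j : J) => gapEquiv x.2 Y u (x.1.symm j))
        (volume.restrict (gdom (Fintype.card J) Y)) =
      volume.restrict (Set.univ.pi fun _ : J => Set.Ioo 0 Y) := by
  have hterm : ∀ x : (Fin (Fintype.card J) ≃ J) × Fin (Fintype.card J + 1),
      Measure.map (fun (u : Fin (Fintype.card J) → ℝ) (j : J) => gapEquiv x.2 Y u (x.1.symm j))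
        (volume.restrict (gdom (Fintype.card J) Y)) = volume.restrict (jreg Y x) := by
    intro x
    have h1 := map_gapEquiv_gdom (n := Fintype.card J) Y x.2
    have h2 := (measurePreserving_reindex' x.1).restrict_preimage (measurableSet_jreg Y x)
    have h3 : (fun (u : Fin (Fintype.card J) → ℝ) (j : J) => u (x.1.symm j)) ⁻¹' (jreg Y x) =
        oreg Y x.2 := by
      ext t
      simp [jreg]
    rw [h3] at h2
    rw [← h2.map_eq, ← h1, Measure.map_map h2.measurable (measurePreserving_gapEquiv x.2 Y).measurable]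
    rfl
  rw [Finset.sum_congr rfl fun x _ => hterm x]
  by_cases hn : 0 < Fintype.card J
  · rw [← Measure.sum_fintype, ← Measure.restrict_iUnion
      (fun x x' h => jreg_disjoint Y h hn) (fun x => measurableSet_jreg Y x)]
    exact Measure.restrict_congr_set (iUnion_jreg Y hn)
  · have hc : Fintype.card J = 0 := by omega
    have hJ : IsEmpty J := Fintype.card_eq_zero_iff.1 hc
    have h1 : ∀ x : (Fin (Fintype.card J) ≃ J) × Fin (Fintype.card J + 1),
        (volume : Measure (J → ℝ)).restrict (jreg Y x) = volume := by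
      intro x
      have : jreg (J := J) Y x = Set.univ := by
        ext s
        simp only [jreg, oreg, Set.mem_ofPred_eq, Set.mem_univ, iff_true]
        intro i
        exact absurd i.2 (by omega)
      rw [this, Measure.restrict_univ]
    have h2 : (Set.univ.pi fun _ : J => Set.Ioo 0 Y) = Set.univ :=
      Set.eq_univ_of_forall fun s j => hJ.elim j
    rw [Finset.sum_congr rfl fun x _ => h1 x, Finset.sum_const, Finset.card_univ,
      Fintype.card_prod, Fintype.card_equiv (Fintype.equivFin J).symm, Fintype.card_fin,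
      Fintype.card_fin, hc, h2, Measure.restrict_univ]
    simp

end Ord

section Cx

variable {J : Type*} [Fintype J] [DecidableEq J]

/-- The measure `d²X/|X|²` on the annulus `exp (-Y) < |X| < 1`, in log-polar form. -/
noncomputable def annMeas (Y : ℝ) : Measure ℂ :=
  Measure.map (fun p : ℝ × ℝ => Complex.exp (-(p.1 : ℂ) + (p.2 : ℂ) * Complex.I))
    ((volume.restrict (Set.Ioo 0 Y)).prod (volume.restrict (Set.Ioc (-Real.pi) Real.pi)))

instance (Y : ℝ) : IsFiniteMeasure (annMeas Y) := by
  unfold annMeas
  infer_instance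

/-- The coordinates `X` of the marks: products of the gaps. -/
noncomputable def posX (x : (Fin (Fintype.card J) ≃ J) × Fin (Fintype.card J + 1)) (Y a : ℝ)
    (p : (Fin (Fintype.card J) → ℝ) × (Fin (Fintype.card J) → ℝ)) (j : J) : ℂ :=
  ∏ i' ∈ Iic (x.1.symm j).castSucc,
    Complex.exp (-((fullGap x.2 Y p.1 i' : ℝ) : ℂ) + ((fullGap x.2 a p.2 i' : ℝ) : ℂ) * Complex.I)

theorem posX_eq (x : (Fin (Fintype.card J) ≃ J) × Fin (Fintype.card J + 1)) (Y a : ℝ)
    (p : (Fin (Fintype.card J) → ℝ) × (Fin (Fintype.card J) → ℝ)) (j : J) :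
    posX x Y a p j = Complex.exp (-((gapEquiv x.2 Y p.1 (x.1.symm j) : ℝ) : ℂ) +
      ((gapEquiv x.2 a p.2 (x.1.symm j) : ℝ) : ℂ) * Complex.I) := by
  rw [posX, ← Complex.exp_sum]
  congr 1
  rw [Finset.sum_add_distrib, Finset.sum_neg_distrib, ← Finset.sum_mul]
  show _ = -((posOf (fullGap x.2 Y p.1) (x.1.symm j) : ℝ) : ℂ) +
    ((posOf (fullGap x.2 a p.2) (x.1.symm j) : ℝ) : ℂ) * Complex.I
  simp only [posOf, Complex.ofReal_sum]

/-- From sizes and unit numbers to the coordinates. -/
noncomputable def mk (q : (J → ℝ) × (J → ℂ)) (j : J) : ℂ := Complex.exp (-(q.1 j : ℂ)) * q.2 j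

theorem measurable_mk : Measurable (mk (J := J)) := by
  refine measurable_pi_lambda _ fun j => ?_
  unfold mk
  fun_prop

/-- Unit numbers. -/
noncomputable def uc (φ : J → ℝ) (j : J) : ℂ := Complex.exp ((φ j : ℂ) * Complex.I)

theorem measurable_uc : Measurable (uc (J := J)) := by
  refine measurable_pi_lambda _ fun j => ?_
  unfold uc
  fun_prop

/-- The product measure in polar form. -/
theorem pi_annMeas (Y : ℝ) : Measure.pi (fun _ : J => annMeas Y) =
    Measure.map mk ((volume.restrict (Set.univ.pi fun _ : J => Set.Ioo 0 Y)).prod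
      (Measure.map uc (volume.restrict (angBox J)))) := by
  have hm : Measurable fun p : ℝ × ℝ =>
      Complex.exp (-(p.1 : ℂ) + (p.2 : ℂ) * Complex.I) := by fun_prop
  have h1 := measurePreserving_pi
    (fun _ : J => (volume.restrict (Set.Ioo 0 Y)).prod (volume.restrict (Set.Ioc (-Real.pi) Real.pi)))
    (fun _ : J => annMeas Y) (fun _ => ⟨hm, rfl⟩)
  have h2 := measurePreserving_arrowProdEquivProdArrow ℝ ℝ J
    (fun _ => volume.restrict (Set.Ioo 0 Y)) (fun _ => volume.restrict (Set.Ioc (-Real.pi) Real.pi))
  rw [← h1.map_eq]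
  have h3 : (volume.restrict (Set.univ.pi fun _ : J => Set.Ioo 0 Y)) =
      Measure.pi fun _ : J => volume.restrict (Set.Ioo 0 Y) := by
    rw [volume_pi, Measure.restrict_pi_pi]
  have h4 : (volume.restrict (angBox J)) =
      Measure.pi fun _ : J => volume.restrict (Set.Ioc (-Real.pi) Real.pi) := by
    rw [angBox, volume_pi, Measure.restrict_pi_pi]
  have h5 : (Measure.pi fun _ : J => volume.restrict (Set.Ioo 0 Y)).prod
      (Measure.map uc (Measure.pi fun _ : J => volume.restrict (Set.Ioc (-Real.pi) Real.pi))) =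
      Measure.map (Prod.map id uc) ((Measure.pi fun _ : J => volume.restrict (Set.Ioo 0 Y)).prod
        (Measure.pi fun _ : J => volume.restrict (Set.Ioc (-Real.pi) Real.pi))) := by
    rw [← Measure.map_prod_map _ _ measurable_id measurable_uc, Measure.map_id]
  have hm2 : Measurable (Prod.map (id : (J → ℝ) → (J → ℝ)) (uc (J := J))) :=
    measurable_id.prodMap measurable_uc
  rw [h3, h4, h5, ← h2.map_eq, Measure.map_map hm2 h2.measurable,
    Measure.map_map measurable_mk (hm2.comp h2.measurable)]
  congr 1
  funext a j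
  show Complex.exp (-((a j).1 : ℂ) + ((a j).2 : ℂ) * Complex.I) =
    Complex.exp (-((a j).1 : ℂ)) * Complex.exp (((a j).2 : ℂ) * Complex.I)
  rw [Complex.exp_add]

/-- The angular part of a region. -/
theorem map_uc_gap (e : Fin (Fintype.card J) ≃ J) (m : Fin (Fintype.card J + 1)) (a : ℝ) :
    Measure.map (fun (θ : Fin (Fintype.card J) → ℝ) (j : J) =>
        Complex.exp (((gapEquiv m a θ (e.symm j) : ℝ) : ℂ) * Complex.I))
      (volume.restrict (angBox (Fin (Fintype.card J)))) =
    Measure.map uc (volume.restrict (angBox J)) := by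
  have h0 := map_angle_gap (n := Fintype.card J) m a
  have hr : Measurable fun (c : Fin (Fintype.card J) → ℂ) (j : J) => c (e.symm j) :=
    measurable_pi_lambda _ fun j => measurable_pi_apply _
  have hg : Measurable fun (θ : Fin (Fintype.card J) → ℝ) (i : Fin (Fintype.card J)) =>
      Complex.exp (((gapEquiv m a θ i : ℝ) : ℂ) * Complex.I) := by
    refine measurable_pi_lambda _ fun i => ?_
    have : Measurable fun θ : Fin (Fintype.card J) → ℝ => gapEquiv m a θ i :=
      (measurable_pi_apply i).comp (measurePreserving_gapEquiv m a).measurable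
    fun_prop
  have h1 : (fun (θ : Fin (Fintype.card J) → ℝ) (j : J) =>
        Complex.exp (((gapEquiv m a θ (e.symm j) : ℝ) : ℂ) * Complex.I)) =
      (fun (c : Fin (Fintype.card J) → ℂ) (j : J) => c (e.symm j)) ∘
        (fun (θ : Fin (Fintype.card J) → ℝ) (i : Fin (Fintype.card J)) =>
      Complex.exp (((gapEquiv m a θ i : ℝ) : ℂ) * Complex.I)) := rfl
  rw [h1, ← Measure.map_map hr hg, h0]
  change Measure.map (fun (c : Fin (Fintype.card J) → ℂ) (j : J) => c (e.symm j))
    (Measure.map uc (volume.restrict (angBox (Fin (Fintype.card J))))) = _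
  rw [Measure.map_map hr measurable_uc]
  -- reindexing of the box
  have h2 := (measurePreserving_reindex' e).restrict_preimage
    (s := angBox J) (MeasurableSet.univ_pi fun _ => measurableSet_Ioc)
  have h3 : (fun (u : Fin (Fintype.card J) → ℝ) (j : J) => u (e.symm j)) ⁻¹' (angBox J) =
      angBox (Fin (Fintype.card J)) := by
    ext φ
    simp only [angBox, Set.mem_preimage, Set.mem_univ_pi]
    constructor
    · intro h i
      simpa using h (e i)
    · intro h j
      exact h _
  rw [h3] at h2
  rw [← h2.map_eq, Measure.map_map measurable_uc h2.measurable]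
  rfl

/-- **The power of the measure `d²X/|X|²` is the sum over the orders and the numbers of the largest
gap of the measures `du dθ` in the gap coordinates.** -/
theorem order_measure_eq (Y a : ℝ) : Measure.pi (fun _ : J => annMeas Y) =
    ∑ x : (Fin (Fintype.card J) ≃ J) × Fin (Fintype.card J + 1),
      Measure.map (posX x Y a) ((volume.restrict (gdom (Fintype.card J) Y)).prod
        (volume.restrict (angBox (Fin (Fintype.card J))))) := by
  have hterm : ∀ x : (Fin (Fintype.card J) ≃ J) × Fin (Fintype.card J + 1),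
      Measure.map (posX x Y a) ((volume.restrict (gdom (Fintype.card J) Y)).prod
        (volume.restrict (angBox (Fin (Fintype.card J))))) =
      Measure.map mk ((Measure.map (fun (u : Fin (Fintype.card J) → ℝ) (j : J) =>
        gapEquiv x.2 Y u (x.1.symm j)) (volume.restrict (gdom (Fintype.card J) Y))).prod
          (Measure.map uc (volume.restrict (angBox J)))) := by
    intro x
    have hu : Measurable fun (u : Fin (Fintype.card J) → ℝ) (j : J) =>
        gapEquiv x.2 Y u (x.1.symm j) :=
      (measurePreserving_reindex' x.1).measurable.comp (measurePreserving_gapEquiv x.2 Y).measurable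
    have hv : Measurable fun (θ : Fin (Fintype.card J) → ℝ) (j : J) =>
        Complex.exp (((gapEquiv x.2 a θ (x.1.symm j) : ℝ) : ℂ) * Complex.I) := by
      refine measurable_pi_lambda _ fun j => ?_
      have : Measurable fun θ : Fin (Fintype.card J) → ℝ => gapEquiv x.2 a θ (x.1.symm j) :=
        (measurable_pi_apply _).comp (measurePreserving_gapEquiv x.2 a).measurable
      fun_prop
    rw [← map_uc_gap x.1 x.2 a, Measure.map_prod_map _ _ hu hv,
      Measure.map_map measurable_mk (hu.prodMap hv)]
    congr 1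
    funext p j
    rw [posX_eq, Complex.exp_add]
    rfl
  rw [Finset.sum_congr rfl fun x _ => hterm x, pi_annMeas, ← sum_map_eq Y, ← Measure.sum_fintype,
    Measure.prod_sum_left, Measure.map_sum measurable_mk.aemeasurable, Measure.sum_fintype]

end Cx

end Vale.Agent.P273.H708
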