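import Vale.Agent.P273.H708.OrderMeas

/-!
Orders and largest gaps on several necks at once.
-/

set_option linter.unusedSectionVars false
set_option linter.unusedVariables false

namespace Vale.Agent.P273.H708

open MeasureTheory Finset Vale.Agent.P273.H852

section Gen

variable {K : Type*} [Fintype K]

/-- A product of sums of measures. -/
theorem pi_sum_eq {α : K → Type*} [∀ k, MeasurableSpace (α k)] {X : K → Type*}
    [∀ k, Fintype (X k)] [DecidableEq K] (μ : ∀ k, X k → Measure (α k))
    [∀ k x, SigmaFinite (μ k x)] :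
    Measure.pi (fun k => ∑ x, μ k x) = ∑ x : ∀ k, X k, Measure.pi fun k => μ k (x k) := by
  have hs : ∀ k, SigmaFinite (∑ x, μ k x) := fun k => by
    rw [← Measure.sum_fintype]; infer_instance
  refine Measure.pi_eq fun s hs => ?_
  rw [Measure.finsetSum_apply]
  simp only [Measure.pi_pi, Measure.finsetSum_apply]
  rw [Finset.prod_univ_sum]
  simp

/-- A product of products of two measures. -/
theorem pi_prod_eq {α β : K → Type*} [∀ k, MeasurableSpace (α k)] [∀ k, MeasurableSpace (β k)]
    (μ : ∀ k, Measure (α k)) (ν : ∀ k, Measure (β k)) [∀ k, SigmaFinite (μ k)]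
    [∀ k, SigmaFinite (ν k)] :
    MeasurePreserving (fun (q : (∀ k, α k) × (∀ k, β k)) k => (q.1 k, q.2 k))
      ((Measure.pi μ).prod (Measure.pi ν)) (Measure.pi fun k => (μ k).prod (ν k)) := by
  have hm1 : Measurable (fun (q : (∀ k, α k) × (∀ k, β k)) k => (q.1 k, q.2 k)) := by
    refine measurable_pi_lambda _ fun k => ?_
    fun_prop
  let e : (∀ k, α k × β k) ≃ᵐ (∀ k, α k) × (∀ k, β k) :=
    { toFun := fun q => (fun k => (q k).1, fun k => (q k).2)
      invFun := fun q k => (q.1 k, q.2 k)
      left_inv := fun q => rfl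
      right_inv := fun q => rfl
      measurable_toFun := by
        show Measurable fun (q : ∀ k, α k × β k) => ((fun k => (q k).1), (fun k => (q k).2))
        fun_prop
      measurable_invFun := hm1 }
  have h : MeasurePreserving e (Measure.pi fun k => (μ k).prod (ν k))
      ((Measure.pi μ).prod (Measure.pi ν)) := by
    refine ⟨e.measurable, ?_⟩
    refine (Measure.FiniteSpanningSetsIn.ext ?_ (isPiSystem_pi.prod isPiSystem_pi)
      ((Measure.FiniteSpanningSetsIn.pi fun i ↦ (μ i).toFiniteSpanningSetsIn).prod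
      (Measure.FiniteSpanningSetsIn.pi (fun i ↦ (ν i).toFiniteSpanningSetsIn))) ?_).symm
    · refine (generateFrom_eq_prod generateFrom_pi generateFrom_pi ?_ ?_).symm
      · exact (Measure.FiniteSpanningSetsIn.pi
          (fun i ↦ (μ i).toFiniteSpanningSetsIn)).isCountablySpanning
      · exact (Measure.FiniteSpanningSetsIn.pi
          (fun i ↦ (ν i).toFiniteSpanningSetsIn)).isCountablySpanning
    · rintro _ ⟨s, ⟨s, _, rfl⟩, ⟨_, ⟨t, _, rfl⟩, rfl⟩⟩
      rw [MeasurableEquiv.map_apply]
      rw [show e ⁻¹' (Set.univ.pi s ×ˢ Set.univ.pi t) = (Set.univ.pi fun i ↦ s i ×ˢ t i) by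
          ext x
          simp only [Set.mem_preimage, Set.mem_prod, Set.mem_univ_pi]
          exact forall_and.symm]
      simp_rw [Measure.pi_pi, Measure.prod_prod, Measure.pi_pi, Finset.prod_mul_distrib]
  exact h.symm e

/-- A product over a sigma type. -/
theorem pi_sigma_uncurry {κ : K → Type*} [∀ k, Fintype (κ k)] {α : (Σ k, κ k) → Type*}
    [∀ p, MeasurableSpace (α p)] (μ : ∀ p, Measure (α p)) [∀ p, SigmaFinite (μ p)] :
    MeasurePreserving (fun (f : ∀ k, ∀ j, α ⟨k, j⟩) (p : Σ k, κ k) => f p.1 p.2)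
      (Measure.pi fun k => Measure.pi fun j => μ ⟨k, j⟩) (Measure.pi μ) := by
  have hm : Measurable (fun (f : ∀ k, ∀ j, α ⟨k, j⟩) (p : Σ k, κ k) => f p.1 p.2) := by
    refine measurable_pi_lambda _ fun p => ?_
    exact (measurable_pi_apply p.2).comp (measurable_pi_apply p.1)
  refine ⟨hm, (Measure.pi_eq fun s hs => ?_).symm⟩
  rw [Measure.map_apply hm (MeasurableSet.univ_pi hs)]
  have h1 : (fun (f : ∀ k, ∀ j, α ⟨k, j⟩) (p : Σ k, κ k) => f p.1 p.2) ⁻¹' (Set.univ.pi s) =
      Set.univ.pi fun k => Set.univ.pi fun j => s ⟨k, j⟩ := by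
    ext f
    simp only [Set.mem_preimage, Set.mem_univ_pi]
    exact ⟨fun h k j => h ⟨k, j⟩, fun h p => h p.1 p.2⟩
  rw [h1, Measure.pi_pi]
  simp only [Measure.pi_pi]
  rw [Fintype.prod_sigma]

theorem pi_sigma_curry {κ : K → Type*} [∀ k, Fintype (κ k)] {α : (Σ k, κ k) → Type*}
    [∀ p, MeasurableSpace (α p)] (μ : ∀ p, Measure (α p)) [∀ p, SigmaFinite (μ p)] :
    MeasurePreserving (fun (f : ∀ p, α p) (k : K) (j : κ k) => f ⟨k, j⟩)
      (Measure.pi μ) (Measure.pi fun k => Measure.pi fun j => μ ⟨k, j⟩) := by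
  have h := pi_sigma_uncurry μ
  let e : (∀ k, ∀ j, α ⟨k, j⟩) ≃ᵐ (∀ p, α p) :=
    { toFun := fun f p => f p.1 p.2
      invFun := fun f k j => f ⟨k, j⟩
      left_inv := fun f => rfl
      right_inv := fun f => rfl
      measurable_toFun := h.measurable
      measurable_invFun := by
        refine measurable_pi_lambda _ fun k => ?_
        refine measurable_pi_lambda _ fun j => ?_
        exact measurable_pi_apply _ }
  have h' : MeasurePreserving e (Measure.pi fun k => Measure.pi fun j => μ ⟨k, j⟩)
    (Measure.pi μ) := h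
  exact h'.symm e

end Gen

section Necks

variable {K : Type*} [Fintype K] [DecidableEq K] {J : K → Type*} [∀ k, Fintype (J k)]
  [∀ k, DecidableEq (J k)]

/-- The orders and the numbers of the eliminated gaps on all necks. -/
abbrev Idx (J : K → Type*) [∀ k, Fintype (J k)] : Type _ :=
  ∀ k, (Fin (Fintype.card (J k)) ≃ J k) × Fin (Fintype.card (J k) + 1)

/-- The free gaps. -/
abbrev Fg (J : K → Type*) [∀ k, Fintype (J k)] : Type _ := Σ k, Fin (Fintype.card (J k))

/-- Domain of the free gaps on all necks. -/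
def mdom (J : K → Type*) [∀ k, Fintype (J k)] (Y : K → ℝ) : Set (Fg J → ℝ) :=
  {u | ∀ g : Fg J, 0 < u g ∧ u g < Y g.1 - ∑ i, u ⟨g.1, i⟩}

/-- The coordinates `X` of the marks on all necks. -/
noncomputable def mposX (x : Idx J) (Y a : K → ℝ) (q : (Fg J → ℝ) × (Fg J → ℝ))
    (p : Σ k, J k) : ℂ :=
  posX (x p.1) (Y p.1) (a p.1) (fun i => q.1 ⟨p.1, i⟩, fun i => q.2 ⟨p.1, i⟩) p.2

theorem measurable_posX {J : Type*} [Fintype J] [DecidableEq J]
    (x : (Fin (Fintype.card J) ≃ J) × Fin (Fintype.card J + 1)) (Y a : ℝ) :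
    Measurable (posX x Y a) := by
  refine measurable_pi_lambda _ fun j => ?_
  have h1 : Measurable fun u : Fin (Fintype.card J) → ℝ => gapEquiv x.2 Y u (x.1.symm j) :=
    (measurable_pi_apply _).comp (measurePreserving_gapEquiv x.2 Y).measurable
  have h2 : Measurable fun u : Fin (Fintype.card J) → ℝ => gapEquiv x.2 a u (x.1.symm j) :=
    (measurable_pi_apply _).comp (measurePreserving_gapEquiv x.2 a).measurable
  have h3 : Measurable fun p : (Fin (Fintype.card J) → ℝ) × (Fin (Fintype.card J) → ℝ) =>
      gapEquiv x.2 Y p.1 (x.1.symm j) := h1.comp measurable_fst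
  have h4 : Measurable fun p : (Fin (Fintype.card J) → ℝ) × (Fin (Fintype.card J) → ℝ) =>
      gapEquiv x.2 a p.2 (x.1.symm j) := h2.comp measurable_snd
  simp only [posX_eq]
  fun_prop

theorem pi_gdom (Y : K → ℝ) :
    MeasurePreserving (fun (u : Fg J → ℝ) (k : K) (i : Fin (Fintype.card (J k))) => u ⟨k, i⟩)
      (volume.restrict (mdom J Y))
      (Measure.pi fun k => volume.restrict (gdom (Fintype.card (J k)) (Y k))) := by
  have h := pi_sigma_curry (K := K) (κ := fun k => Fin (Fintype.card (J k)))
    (fun _ : Fg J => (volume : Measure ℝ))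
  have hs : MeasurableSet (Set.univ.pi fun k => gdom (Fintype.card (J k)) (Y k)) :=
    MeasurableSet.univ_pi fun k => measurableSet_gdom _ _
  have h2 := h.restrict_preimage hs
  have h3 : (fun (u : Fg J → ℝ) (k : K) (i : Fin (Fintype.card (J k))) => u ⟨k, i⟩) ⁻¹'
      (Set.univ.pi fun k => gdom (Fintype.card (J k)) (Y k)) = mdom J Y := by
    ext u
    simp only [Set.mem_preimage, Set.mem_univ_pi, gdom, mdom, Set.mem_ofPred_eq]
    exact ⟨fun h g => h g.1 g.2, fun h k i => h ⟨k, i⟩⟩
  rw [h3, Measure.restrict_pi_pi] at h2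
  exact h2

theorem pi_box : MeasurePreserving
      (fun (u : Fg J → ℝ) (k : K) (i : Fin (Fintype.card (J k))) => u ⟨k, i⟩)
      (volume.restrict (angBox (Fg J)))
      (Measure.pi fun k => volume.restrict (angBox (Fin (Fintype.card (J k))))) := by
  have h := pi_sigma_curry (K := K) (κ := fun k => Fin (Fintype.card (J k)))
    (fun _ : Fg J => (volume : Measure ℝ))
  have hs : MeasurableSet (Set.univ.pi fun k => angBox (Fin (Fintype.card (J k)))) :=
    MeasurableSet.univ_pi fun k => MeasurableSet.univ_pi fun _ => measurableSet_Ioc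
  have h2 := h.restrict_preimage hs
  have h3 : (fun (u : Fg J → ℝ) (k : K) (i : Fin (Fintype.card (J k))) => u ⟨k, i⟩) ⁻¹'
      (Set.univ.pi fun k => angBox (Fin (Fintype.card (J k)))) = angBox (Fg J) := by
    ext u
    simp only [Set.mem_preimage, Set.mem_univ_pi, angBox]
    exact ⟨fun h g => h g.1 g.2, fun h k i => h ⟨k, i⟩⟩
  rw [h3, Measure.restrict_pi_pi] at h2
  exact h2

/-- **Orders and largest gaps on all necks.** -/
theorem multi_measure_eq (Y a : K → ℝ) :
    Measure.pi (fun p : Σ k, J k => annMeas (Y p.1)) =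
    ∑ x : Idx J, Measure.map (mposX x Y a)
      ((volume.restrict (mdom J Y)).prod (volume.restrict (angBox (Fg J)))) := by
  have h1 := pi_sigma_uncurry (K := K) (κ := J) (fun p : Σ k, J k => annMeas (Y p.1))
  rw [← h1.map_eq]
  have hfin : ∀ k (x : (Fin (Fintype.card (J k)) ≃ J k) × Fin (Fintype.card (J k) + 1)),
      SigmaFinite (Measure.map (posX x (Y k) (a k)) ((volume.restrict (gdom (Fintype.card (J k))
        (Y k))).prod (volume.restrict (angBox (Fin (Fintype.card (J k))))))) := by
    intro k x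
    have hle : Measure.map (posX x (Y k) (a k)) ((volume.restrict (gdom (Fintype.card (J k))
        (Y k))).prod (volume.restrict (angBox (Fin (Fintype.card (J k)))))) ≤
        Measure.pi (fun _ : J k => annMeas (Y k)) := by
      rw [order_measure_eq (J := J k) (Y k) (a k), ← Measure.sum_fintype]
      exact Measure.le_sum (fun x : (Fin (Fintype.card (J k)) ≃ J k) ×
        Fin (Fintype.card (J k) + 1) => Measure.map (posX x (Y k) (a k))
        ((volume.restrict (gdom (Fintype.card (J k)) (Y k))).prod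
          (volume.restrict (angBox (Fin (Fintype.card (J k))))))) x
    have := isFiniteMeasure_of_le _ hle
    infer_instance
  have h2 : (fun k => Measure.pi fun j : J k => annMeas (Y k)) = fun k =>
      ∑ x : (Fin (Fintype.card (J k)) ≃ J k) × Fin (Fintype.card (J k) + 1),
        Measure.map (posX x (Y k) (a k)) ((volume.restrict (gdom (Fintype.card (J k))
        (Y k))).prod (volume.restrict (angBox (Fin (Fintype.card (J k)))))) :=
    funext fun k => order_measure_eq (Y k) (a k)
  rw [h2, pi_sum_eq, ← Measure.sum_fintype, Measure.map_sum h1.measurable.aemeasurable,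
    Measure.sum_fintype]
  refine Finset.sum_congr rfl fun x _ => ?_
  have h3 := measurePreserving_pi (fun k => (volume.restrict (gdom (Fintype.card (J k))
        (Y k))).prod (volume.restrict (angBox (Fin (Fintype.card (J k))))))
        (fun k => Measure.map (posX (x k) (Y k) (a k)) ((volume.restrict (gdom (Fintype.card (J k))
        (Y k))).prod (volume.restrict (angBox (Fin (Fintype.card (J k)))))))
        (fun k => ⟨measurable_posX (x k) (Y k) (a k), rfl⟩)
  have h4 := pi_prod_eq (fun k => volume.restrict (gdom (Fintype.card (J k)) (Y k)))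
    (fun k => volume.restrict (angBox (Fin (Fintype.card (J k)))))
  have h5 := (pi_gdom (J := J) Y).prod (pi_box (J := J))
  have h6 := (h3.comp (h4.comp h5))
  rw [← h6.map_eq, Measure.map_map h1.measurable h6.measurable]
  rfl

end Necks

end Vale.Agent.P273.H708
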